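import Mathlib

set_option linter.all false

/-! Row C of the part SP: a set with one prime for each odd prime power `m > B`, the prime for a
large prime `r` being at least `r ^ 2 / 2 - 1`, has at most `c sqrt n (log n + 1)` elements up to
`n`, and density zero among the primes. -/

namespace Vale.Agent.P027.R4.H330

open Filter Topology

lemma sqrt_four_mul_le (n : ℕ) : Nat.sqrt (4 * n) ≤ 2 * Nat.sqrt n + 1 := by
  have h : Nat.sqrt (4 * n) < 2 * Nat.sqrt n + 2 := by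
    rw [Nat.sqrt_lt']
    have h1 : n < (Nat.sqrt n + 1) ^ 2 := Nat.lt_succ_sqrt' n
    nlinarith
  omega

lemma log_four_mul {n : ℕ} (hn : 1 ≤ n) : Nat.log 2 (4 * n) = Nat.log 2 n + 2 := by
  rw [show 4 * n = n * 2 * 2 by ring, Nat.log_mul_base (by norm_num) (by omega),
    Nat.log_mul_base (by norm_num) (by omega)]

/-- counting the values of `f` on a set of prime powers -/
theorem card_le {f : ℕ → ℕ} {S : Set ℕ} {N0 : ℕ} (hS : ∀ m ∈ S, IsPrimePow m)
    (h1 : ∀ m ∈ S, m ≤ 2 * (f m + 1))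
    (h2 : ∀ r ∈ S, r.Prime → N0 < r → r ^ 2 ≤ 2 * (f r + 1)) {n : ℕ} (hn : 1 ≤ n) :
    (f '' S ∩ Set.Iic n).ncard ≤ (N0 + 9) * Nat.sqrt n * (Nat.log 2 n + 1) := by
  set s' := Nat.sqrt (2 * n + 2) with hs'
  set l' := Nat.log 2 (2 * n + 2) with hl'
  set A : Finset ℕ := Finset.range (N0 + 1) ∪
    (Finset.range (s' + 1) ×ˢ Finset.Icc 1 l').image (fun p => p.1 ^ p.2) with hA
  have hsub : f '' S ∩ Set.Iic n ⊆ ((A.image f : Finset ℕ) : Set ℕ) := by
    rintro q ⟨⟨m, hm, rfl⟩, hq⟩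
    rw [Set.mem_Iic] at hq
    rw [Finset.coe_image]
    refine ⟨m, ?_, rfl⟩
    rw [Finset.mem_coe, hA, Finset.mem_union]
    have hm1 := h1 m hm
    obtain ⟨r, e, hr, he, rfl⟩ := hS m hm
    have hrp : r.Prime := hr.nat_prime
    have hr2 : 2 ≤ r := hrp.two_le
    have hele : e ≤ l' := by
      rw [hl']
      apply Nat.le_log_of_pow_le (by norm_num)
      calc 2 ^ e ≤ r ^ e := Nat.pow_le_pow_left hr2 e
        _ ≤ 2 * (f (r ^ e) + 1) := hm1
        _ ≤ 2 * n + 2 := by omega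
    have hmain : r ^ 2 ≤ 2 * n + 2 → r ^ e ∈ (Finset.range (s' + 1) ×ˢ Finset.Icc 1 l').image
        (fun p => p.1 ^ p.2) := by
      intro h
      rw [Finset.mem_image]
      refine ⟨(r, e), ?_, rfl⟩
      rw [Finset.mem_product, Finset.mem_range, Finset.mem_Icc]
      refine ⟨?_, he, hele⟩
      have : r ≤ s' := by
        rw [hs', Nat.le_sqrt']
        exact h
      show r < s' + 1
      omega
    rcases Nat.lt_or_ge e 2 with he2 | he2
    · have he1 : e = 1 := by omega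
      subst he1
      rw [pow_one] at hm hm1 hq ⊢
      rcases Nat.lt_or_ge N0 r with hN | hN
      · right
        have h3 := h2 r hm hrp hN
        have h4 := hmain (by omega)
        rwa [pow_one] at h4
      · left
        rw [Finset.mem_range]
        omega
    · right
      apply hmain
      calc r ^ 2 ≤ r ^ e := Nat.pow_le_pow_right (by omega) he2
        _ ≤ 2 * (f (r ^ e) + 1) := hm1
        _ ≤ 2 * n + 2 := by omega
  have hc1 : (f '' S ∩ Set.Iic n).ncard ≤ A.card := by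
    calc (f '' S ∩ Set.Iic n).ncard ≤ ((A.image f : Finset ℕ) : Set ℕ).ncard :=
          Set.ncard_le_ncard hsub (Finset.finite_toSet _)
      _ = (A.image f).card := Set.ncard_coe_finset _
      _ ≤ A.card := Finset.card_image_le
  have hc2 : A.card ≤ (N0 + 1) + (s' + 1) * l' := by
    calc A.card ≤ (Finset.range (N0 + 1)).card +
          ((Finset.range (s' + 1) ×ˢ Finset.Icc 1 l').image (fun p => p.1 ^ p.2)).card :=
          Finset.card_union_le _ _
      _ ≤ (Finset.range (N0 + 1)).card + (Finset.range (s' + 1) ×ˢ Finset.Icc 1 l').card :=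
          Nat.add_le_add_left Finset.card_image_le _
      _ = (N0 + 1) + (s' + 1) * l' := by simp
  have hs : s' ≤ 2 * Nat.sqrt n + 1 :=
    (Nat.sqrt_le_sqrt (by omega)).trans (sqrt_four_mul_le n)
  have hl : l' ≤ Nat.log 2 n + 2 := by
    rw [← log_four_mul hn]
    exact Nat.log_mono_right (by omega)
  have hs1 : 1 ≤ Nat.sqrt n := by
    rw [Nat.le_sqrt']
    omega
  set s := Nat.sqrt n
  set l := Nat.log 2 n
  calc (f '' S ∩ Set.Iic n).ncard ≤ (N0 + 1) + (s' + 1) * l' := hc1.trans hc2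
    _ ≤ (N0 + 1) + (2 * s + 1 + 1) * (l + 2) := by
        gcongr
    _ ≤ (N0 + 9) * s * (l + 1) := by
        have e1 : 1 ≤ s * (l + 1) := Nat.one_le_iff_ne_zero.2 (by positivity)
        have e2 : (2 * s + 1 + 1) * (l + 2) ≤ (4 * s) * (2 * (l + 1)) :=
          Nat.mul_le_mul (by omega) (by omega)
        have e3 : (N0 + 1) * 1 ≤ (N0 + 1) * (s * (l + 1)) := Nat.mul_le_mul_left _ e1
        nlinarith [e2, e3]

/-- at most `c sqrt n (log n + 1)` elements up to `n`: density zero among the primes -/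
theorem tendsto_div_primeCounting {T : Set ℕ} {c : ℕ}
    (h : ∀ n, (T ∩ Set.Iic n).ncard ≤ c * Nat.sqrt n * (Nat.log 2 n + 1)) :
    Tendsto (fun n : ℕ => ((T ∩ Set.Iic n).ncard : ℝ) / (Nat.primeCounting n : ℝ)) atTop
      (𝓝 0) := by
  have hlog : ∀ᶠ n : ℕ in atTop, Real.log n ≤ (n : ℝ) ^ (1 / 8 : ℝ) := by
    have h1 := (isLittleO_log_rpow_atTop (show (0 : ℝ) < 1 / 8 by norm_num)).bound
      (show (0 : ℝ) < 1 by norm_num)
    have h2 := tendsto_natCast_atTop_atTop (R := ℝ) |>.eventually h1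
    filter_upwards [h2, eventually_ge_atTop 1] with n hn hn1
    have h3 : 0 ≤ Real.log n := Real.log_nonneg (by exact_mod_cast hn1)
    rw [Real.norm_of_nonneg h3, one_mul, Real.norm_of_nonneg (by positivity)] at hn
    exact hn
  have hlim : Tendsto (fun n : ℕ => (16 * c : ℝ) * ((n : ℝ) ^ (1 / 4 : ℝ))⁻¹) atTop (𝓝 0) := by
    have h1 : Tendsto (fun n : ℕ => ((n : ℝ) ^ (1 / 4 : ℝ))⁻¹) atTop (𝓝 0) :=
      tendsto_inv_atTop_zero.comp
        ((tendsto_rpow_atTop (by norm_num)).comp tendsto_natCast_atTop_atTop)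
    simpa using h1.const_mul (16 * c : ℝ)
  refine squeeze_zero' (Eventually.of_forall fun n => by positivity) ?_ hlim
  filter_upwards [hlog, eventually_ge_atTop 16] with n hn hn16
  have hn0 : (16 : ℝ) ≤ n := by exact_mod_cast hn16
  have hnpos : (0 : ℝ) < n := by linarith
  set t : ℝ := (n : ℝ) ^ (1 / 8 : ℝ) with ht
  have ht0 : 0 < t := by positivity
  have ht8 : t ^ 8 = n := by
    rw [ht, ← Real.rpow_natCast, ← Real.rpow_mul hnpos.le]
    norm_num
  have ht1 : 1 ≤ t := by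
    by_contra hlt
    push Not at hlt
    have : t ^ 8 < 1 := pow_lt_one₀ ht0.le hlt (by norm_num)
    linarith
  have ht2 : (n : ℝ) ^ (1 / 4 : ℝ) = t ^ 2 := by
    rw [ht, ← Real.rpow_natCast, ← Real.rpow_mul hnpos.le]
    norm_num
  have hlogpos : 0 < Real.log n := Real.log_pos (by linarith)
  have hlog2 : (0.6931471803 : ℝ) < Real.log 2 := Real.log_two_gt_d9
  -- the numerator
  have hsq : (Nat.sqrt n : ℝ) ≤ t ^ 4 := by
    have h1 : ((Nat.sqrt n : ℕ) : ℝ) ^ 2 ≤ (t ^ 4) ^ 2 := by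
      have h2 : (Nat.sqrt n) ^ 2 ≤ n := Nat.sqrt_le' n
      have h3 : ((Nat.sqrt n : ℕ) : ℝ) ^ 2 ≤ n := by exact_mod_cast h2
      calc ((Nat.sqrt n : ℕ) : ℝ) ^ 2 ≤ n := h3
        _ = (t ^ 4) ^ 2 := by rw [← ht8]; ring
    exact le_of_sq_le_sq h1 (by positivity) 
  have hl2 : (Nat.log 2 n : ℝ) + 1 ≤ 3 * t := by
    have h1 : ((Nat.log 2 n : ℕ) : ℝ) * Real.log 2 ≤ Real.log n := by
      have h2 : 2 ^ Nat.log 2 n ≤ n := Nat.pow_log_le_self 2 (by omega)
      have h3 : ((2 : ℝ)) ^ Nat.log 2 n ≤ n := by exact_mod_cast h2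
      calc ((Nat.log 2 n : ℕ) : ℝ) * Real.log 2 = Real.log (2 ^ Nat.log 2 n) := by
            rw [Real.log_pow]
        _ ≤ Real.log n := Real.log_le_log (by positivity) h3
    nlinarith [h1, hn, Nat.cast_nonneg (α := ℝ) (Nat.log 2 n)]
  -- the denominator
  have hpi : (n : ℝ) / 4 ≤ (Nat.primeCounting n : ℝ) * t := by
    have h1 := Chebyshev.pi_ge n
    rw [div_le_iff₀ hlogpos] at h1
    have h2 : Real.log ((n : ℝ) + 1) ≤ (n : ℝ) / 4 := by
      have h3 : Real.log ((n : ℝ) + 1) = Real.log (((n : ℝ) + 1) / 16) + 4 * Real.log 2 := by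
        rw [Real.log_div (by linarith) (by norm_num),
          show (16 : ℝ) = 2 ^ 4 by norm_num, Real.log_pow]
        push_cast
        ring
      have h4 : Real.log (((n : ℝ) + 1) / 16) ≤ ((n : ℝ) + 1) / 16 - 1 :=
        Real.log_le_sub_one_of_pos (by positivity)
      have h5 : Real.log 2 < 0.6931471808 := Real.log_two_lt_d9
      rw [h3]
      linarith
    have h6 : (Nat.primeCounting n : ℝ) * Real.log n ≤ (Nat.primeCounting n : ℝ) * t :=
      mul_le_mul_of_nonneg_left hn (Nat.cast_nonneg _)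
    nlinarith
  have hpipos : (0 : ℝ) < Nat.primeCounting n := by
    by_contra hneg
    have h0 : (Nat.primeCounting n : ℝ) = 0 := le_antisymm (not_lt.1 hneg) (Nat.cast_nonneg _)
    rw [h0, zero_mul] at hpi
    linarith
  have hcard : ((T ∩ Set.Iic n).ncard : ℝ) ≤ c * t ^ 4 * (3 * t) := by
    have h1 : ((T ∩ Set.Iic n).ncard : ℝ) ≤ c * Nat.sqrt n * (Nat.log 2 n + 1) := by
      exact_mod_cast h n
    refine h1.trans ?_
    gcongr
  rw [div_le_iff₀ hpipos, ht2]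
  have h7 : (n : ℝ) / (4 * t) ≤ Nat.primeCounting n := by
    rw [div_le_iff₀ (by positivity)]
    linarith
  calc ((T ∩ Set.Iic n).ncard : ℝ) ≤ c * t ^ 4 * (3 * t) := hcard
    _ ≤ 16 * c * (t ^ 2)⁻¹ * ((n : ℝ) / (4 * t)) := by
        rw [← ht8]
        have : 16 * (c : ℝ) * (t ^ 2)⁻¹ * (t ^ 8 / (4 * t)) = 4 * c * t ^ 5 := by
          field_simp
          ring
        rw [this]
        nlinarith [show (0 : ℝ) ≤ c * t ^ 5 by positivity]
    _ ≤ 16 * c * (t ^ 2)⁻¹ * Nat.primeCounting n := by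
        gcongr

/-- the thin set of omitted primes -/
theorem thin_set {O : ℕ → ℕ → Prop} {B N0 : ℕ}
    (hex : ∀ r e : ℕ, r.Prime → r ≠ 2 → 1 ≤ e → B < r ^ e → ∃ q : ℕ, q.Prime ∧ O q (r ^ e))
    (hsp : ∀ r : ℕ, r.Prime → N0 < r → ∃ q : ℕ, q.Prime ∧ O q r ∧ r ^ 2 ≤ 2 * (q + 1))
    (htriv : ∀ q m : ℕ, q.Prime → O q m → m ≤ 2 * (q + 1)) :
    ∃ (T : Set ℕ) (c : ℕ), (∀ q ∈ T, q.Prime) ∧
      (∀ n : ℕ, (T ∩ Set.Iic n).ncard ≤ c * Nat.sqrt n * (Nat.log 2 n + 1)) ∧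
      Tendsto (fun n : ℕ => ((T ∩ Set.Iic n).ncard : ℝ) / (Nat.primeCounting n : ℝ)) atTop
        (𝓝 0) ∧
      (∀ r e : ℕ, r.Prime → r ≠ 2 → 1 ≤ e → B < r ^ e → ∃ q ∈ T, O q (r ^ e)) ∧
      ∀ q ∈ T, ∃ r e : ℕ, r.Prime ∧ r ≠ 2 ∧ 1 ≤ e ∧ B < r ^ e ∧ O q (r ^ e) := by
  set S : Set ℕ := {m | ∃ r e : ℕ, r.Prime ∧ r ≠ 2 ∧ 1 ≤ e ∧ B < r ^ e ∧ r ^ e = m} with hSdef
  have hf : ∀ m : ℕ, ∃ q : ℕ, m ∈ S → q.Prime ∧ O q m ∧ (m.Prime → N0 < m →
      m ^ 2 ≤ 2 * (q + 1)) := by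
    intro m
    by_cases hm : m ∈ S
    · by_cases hp : m.Prime ∧ N0 < m
      · obtain ⟨q, hq, hqm, hle⟩ := hsp m hp.1 hp.2
        exact ⟨q, fun _ => ⟨hq, hqm, fun _ _ => hle⟩⟩
      · obtain ⟨r, e, hr, hr2, he, hB, rfl⟩ := hm
        obtain ⟨q, hq, hqm⟩ := hex r e hr hr2 he hB
        exact ⟨q, fun _ => ⟨hq, hqm, fun h1 h2 => (hp ⟨h1, h2⟩).elim⟩⟩
    · exact ⟨0, fun h => (hm h).elim⟩
  choose f hf using hf
  have hcount : ∀ n : ℕ, (f '' S ∩ Set.Iic n).ncard ≤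
      (N0 + 9) * Nat.sqrt n * (Nat.log 2 n + 1) := by
    intro n
    rcases Nat.eq_zero_or_pos n with rfl | hn
    · have : f '' S ∩ Set.Iic 0 = ∅ := by
        rw [Set.eq_empty_iff_forall_notMem]
        rintro q ⟨⟨m, hm, rfl⟩, hq⟩
        have h1 := (hf m hm).1.two_le
        rw [Set.mem_Iic] at hq
        omega
      rw [this, Set.ncard_empty]
      exact Nat.zero_le _
    · refine card_le ?_ ?_ ?_ hn
      · rintro m ⟨r, e, hr, -, he, -, rfl⟩
        exact hr.isPrimePow.pow (by omega)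
      · intro m hm
        exact htriv _ _ (hf m hm).1 (hf m hm).2.1
      · intro r hr hrp hN
        exact (hf r hr).2.2 hrp hN
  refine ⟨f '' S, N0 + 9, ?_, hcount, tendsto_div_primeCounting hcount, ?_, ?_⟩
  · rintro q ⟨m, hm, rfl⟩
    exact (hf m hm).1
  · intro r e hr hr2 he hB
    have hm : r ^ e ∈ S := ⟨r, e, hr, hr2, he, hB, rfl⟩
    exact ⟨f (r ^ e), ⟨_, hm, rfl⟩, (hf _ hm).2.1⟩
  · rintro q ⟨m, hm, rfl⟩
    obtain ⟨r, e, hr, hr2, he, hB, rfl⟩ := hm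
    exact ⟨r, e, hr, hr2, he, hB, (hf _ ⟨r, e, hr, hr2, he, hB, rfl⟩).2.1⟩

end Vale.Agent.P027.R4.H330
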