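import Vale.Agent.P027.R4.H330.CntS

set_option linter.all false

/-! Row C of the part SP, with the logarithm saved: a set with one prime for each prime power, the
prime for a prime `r` being at least `r ^ 2 / 2 - 1`, has at most `c sqrt n / log n` elements up to
`n`, with an absolute constant `c`. -/

namespace Vale.Agent.P027.R4.H330

open Filter Topology

/-- the number of prime powers up to `y` -/
theorem card_primePow_le (y : ℕ) :
    ((Finset.range (y + 1)).filter IsPrimePow).card ≤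
      Nat.primeCounting y + 3 * (Nat.sqrt y + 1) := by
  have hsub : (Finset.range (y + 1)).filter IsPrimePow ⊆
      (Finset.range (y + 1)).filter Nat.Prime ∪
        (Finset.range (Nat.sqrt y + 1) ×ˢ Finset.range 3).image psi := by
    intro m hm
    rw [Finset.mem_filter, Finset.mem_range] at hm
    obtain ⟨hmy, r, e, hr, he, rfl⟩ := hm
    have hrp : r.Prime := hr.nat_prime
    rw [Finset.mem_union]
    rcases Nat.lt_or_ge e 2 with he2 | he2
    · left
      have he1 : e = 1 := by omega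
      subst he1
      rw [pow_one] at hmy ⊢
      rw [Finset.mem_filter, Finset.mem_range]
      exact ⟨hmy, hrp⟩
    · right
      obtain ⟨x, hx, i, hi, hxi⟩ := psi_cover hrp he2 (show r ^ e ≤ y by omega)
      rw [← hxi]
      refine Finset.mem_image_of_mem psi ?_
      rw [Finset.mem_product, Finset.mem_range, Finset.mem_range]
      exact ⟨Nat.lt_succ_of_le hx, hi⟩
  calc ((Finset.range (y + 1)).filter IsPrimePow).card
      ≤ ((Finset.range (y + 1)).filter Nat.Prime ∪
        (Finset.range (Nat.sqrt y + 1) ×ˢ Finset.range 3).image psi).card :=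
        Finset.card_le_card hsub
    _ ≤ ((Finset.range (y + 1)).filter Nat.Prime).card +
        ((Finset.range (Nat.sqrt y + 1) ×ˢ Finset.range 3).image psi).card :=
        Finset.card_union_le _ _
    _ ≤ ((Finset.range (y + 1)).filter Nat.Prime).card +
        (Finset.range (Nat.sqrt y + 1) ×ˢ Finset.range 3).card :=
        Nat.add_le_add_left Finset.card_image_le _
    _ = Nat.primeCounting y + 3 * (Nat.sqrt y + 1) := by
        rw [Finset.card_product, Finset.card_range, Finset.card_range, mul_comm,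
          Nat.primeCounting, Nat.primeCounting', Nat.count_eq_card_filter_range]

lemma half_primePow {r e : ℕ} (hr : r.Prime) (he : 2 ≤ e) {y : ℕ} (h : r ^ e ≤ y) :
    ∃ x ≤ Nat.sqrt y, IsPrimePow x ∧ ∃ i < 3, psi (x, i) = r ^ e := by
  rcases Nat.even_or_odd' e with ⟨k, rfl | rfl⟩
  · refine ⟨r ^ k, ?_, hr.isPrimePow.pow (by omega), 1, by norm_num, ?_⟩
    · rw [Nat.le_sqrt', ← pow_mul, mul_comm]
      exact h
    · simp only [psi]
      rw [if_neg (by norm_num), if_pos trivial, ← pow_mul, mul_comm]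
  · have hk : k ≠ 0 := by omega
    refine ⟨r ^ k, ?_, hr.isPrimePow.pow hk, 2, by norm_num, ?_⟩
    · rw [Nat.le_sqrt', ← pow_mul, mul_comm]
      refine le_trans ?_ h
      exact Nat.pow_le_pow_right hr.pos (by omega)
    · simp only [psi]
      rw [if_neg (by norm_num), if_neg (by norm_num), hr.pow_minFac hk, ← pow_mul, mul_comm k 2,
        pow_succ]

/-- counting the values of `f` on a set of prime powers by the prime powers up to the square
root -/
theorem card_le_primePow {f : ℕ → ℕ} {S : Set ℕ} (hS : ∀ m ∈ S, IsPrimePow m)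
    (h1 : ∀ m ∈ S, m ≤ 2 * (f m + 1))
    (h2 : ∀ r ∈ S, r.Prime → r ^ 2 ≤ 2 * (f r + 1)) (n : ℕ) :
    (f '' S ∩ Set.Iic n).ncard ≤
      3 * (Nat.primeCounting (Nat.sqrt (2 * n + 2)) +
        3 * (Nat.sqrt (Nat.sqrt (2 * n + 2)) + 1)) := by
  set s' := Nat.sqrt (2 * n + 2) with hs'
  set Q : Finset ℕ := (Finset.range (s' + 1)).filter IsPrimePow with hQ
  set A : Finset ℕ := (Q ×ˢ Finset.range 3).image psi with hA
  have hsub : f '' S ∩ Set.Iic n ⊆ ((A.image f : Finset ℕ) : Set ℕ) := by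
    rintro q ⟨⟨m, hm, rfl⟩, hq⟩
    rw [Set.mem_Iic] at hq
    rw [Finset.coe_image]
    refine ⟨m, ?_, rfl⟩
    rw [Finset.mem_coe, hA]
    have hm1 := h1 m hm
    obtain ⟨r, e, hr, he, rfl⟩ := hS m hm
    have hrp : r.Prime := hr.nat_prime
    have hmain : ∀ x i : ℕ, x ≤ s' → IsPrimePow x → i < 3 → psi (x, i) ∈
        (Q ×ˢ Finset.range 3).image psi := by
      intro x i hx hpx hi
      refine Finset.mem_image_of_mem psi ?_
      rw [Finset.mem_product, hQ, Finset.mem_filter, Finset.mem_range, Finset.mem_range]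
      exact ⟨⟨Nat.lt_succ_of_le hx, hpx⟩, hi⟩
    rcases Nat.lt_or_ge e 2 with he2 | he2
    · have he1 : e = 1 := by omega
      subst he1
      rw [pow_one] at hm hm1 hq ⊢
      have h3 := h2 r hm hrp
      have h4 : r ≤ s' := by
        rw [hs', Nat.le_sqrt']
        omega
      have h5 := hmain r 0 h4 hrp.isPrimePow (by norm_num)
      simpa [psi] using h5
    · obtain ⟨x, hx, hpx, i, hi, hxi⟩ := half_primePow hrp he2
        (show r ^ e ≤ 2 * n + 2 by omega)
      rw [← hxi]
      exact hmain x i hx hpx hi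
  calc (f '' S ∩ Set.Iic n).ncard ≤ ((A.image f : Finset ℕ) : Set ℕ).ncard :=
        Set.ncard_le_ncard hsub (Finset.finite_toSet _)
    _ = (A.image f).card := Set.ncard_coe_finset _
    _ ≤ A.card := Finset.card_image_le
    _ ≤ (Q ×ˢ Finset.range 3).card := Finset.card_image_le
    _ = 3 * Q.card := by rw [Finset.card_product, Finset.card_range, mul_comm]
    _ ≤ 3 * (Nat.primeCounting s' + 3 * (Nat.sqrt s' + 1)) :=
        Nat.mul_le_mul_left _ (card_primePow_le s')

/-- the bound of the previous theorem -/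
def bd (n : ℕ) : ℕ :=
  3 * (Nat.primeCounting (Nat.sqrt (2 * n + 2)) + 3 * (Nat.sqrt (Nat.sqrt (2 * n + 2)) + 1))

/-- the bound is `O(sqrt n / log n)` -/
theorem bound_ev : ∀ᶠ n : ℕ in atTop, (bd n : ℝ) ≤ 72 * (√n / Real.log n) := by
  have hlog : ∀ᶠ n : ℕ in atTop, Real.log n ≤ (n : ℝ) ^ (1 / 8 : ℝ) := by
    have h1 := (isLittleO_log_rpow_atTop (show (0 : ℝ) < 1 / 8 by norm_num)).bound
      (show (0 : ℝ) < 1 by norm_num)
    have h2 := tendsto_natCast_atTop_atTop (R := ℝ) |>.eventually h1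
    filter_upwards [h2, eventually_ge_atTop 1] with n hn hn1
    have h3 : 0 ≤ Real.log n := Real.log_nonneg (by exact_mod_cast hn1)
    rw [Real.norm_of_nonneg h3, one_mul, Real.norm_of_nonneg (by positivity)] at hn
    exact hn
  have hyt : Tendsto (fun n : ℕ => Nat.sqrt (2 * n + 2)) atTop atTop := by
    rw [tendsto_atTop_atTop]
    intro b
    refine ⟨b ^ 2, fun n hn => ?_⟩
    rw [Nat.le_sqrt']
    omega
  have hpi := (tendsto_natCast_atTop_atTop (R := ℝ)).comp hyt |>.eventually
    (Chebyshev.eventually_primeCounting_le (show (0 : ℝ) < 1 / 2 by norm_num))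
  filter_upwards [hlog, hpi, eventually_ge_atTop 16] with n hn hpin hn16
  have hn0 : (16 : ℝ) ≤ n := by exact_mod_cast hn16
  have hnpos : (0 : ℝ) < n := by linarith
  have hlogpos : 0 < Real.log n := Real.log_pos (by linarith)
  unfold bd
  set y : ℕ := Nat.sqrt (2 * n + 2) with hy
  have hsn : (4 : ℝ) ≤ √n := by
    rw [show (4 : ℝ) = √16 by
      rw [show (16 : ℝ) = 4 ^ 2 by norm_num, Real.sqrt_sq (by norm_num)]]
    exact Real.sqrt_le_sqrt hn0
  have hy1 : (y : ℝ) ≤ 3 * √n := by
    have h1 : y ≤ 2 * Nat.sqrt n + 1 :=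
      (Nat.sqrt_le_sqrt (by omega)).trans (sqrt_four_mul_le n)
    have h2 : 1 ≤ Nat.sqrt n := by
      rw [Nat.le_sqrt']
      omega
    have h3 : y ≤ 3 * Nat.sqrt n := by omega
    have h4 : ((Nat.sqrt n : ℕ) : ℝ) ≤ √n := Real.nat_sqrt_le_real_sqrt
    have h5 : (y : ℝ) ≤ 3 * (Nat.sqrt n : ℕ) := by exact_mod_cast h3
    linarith
  have hy2 : √n ≤ y := by
    have h2 : n ≤ y ^ 2 := by
      have h3 : 2 * n + 2 < (y + 1) ^ 2 := Nat.lt_succ_sqrt' _
      have h4 : 4 ≤ y := by
        rw [hy, Nat.le_sqrt']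
        omega
      nlinarith
    rw [Real.sqrt_le_left (by positivity)]
    exact_mod_cast h2
  have hlogy : Real.log n / 2 ≤ Real.log y := by
    rw [← Real.log_sqrt hnpos.le]
    exact Real.log_le_log (by positivity) hy2
  have hlogy0 : 0 < Real.log y := by linarith
  have hpi1 : (Nat.primeCounting y : ℝ) ≤ 12 * (√n / Real.log n) := by
    have h1 : (Nat.primeCounting y : ℝ) ≤ (Real.log 4 + 1 / 2) * y / Real.log y := by
      have := hpin
      simp only [Function.comp, Nat.floor_natCast] at this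
      exact this
    have h2 : Real.log 4 ≤ 3 / 2 := by
      have h3 : Real.log 4 = 2 * Real.log 2 := by
        rw [show (4 : ℝ) = 2 ^ 2 by norm_num, Real.log_pow]
        norm_num
      have h4 := Real.log_two_lt_d9
      rw [h3]
      linarith
    calc (Nat.primeCounting y : ℝ) ≤ (Real.log 4 + 1 / 2) * y / Real.log y := h1
      _ ≤ 2 * (3 * √n) / (Real.log n / 2) := by
          gcongr
          linarith
      _ = 12 * (√n / Real.log n) := by
          field_simp
          ring
  have hsq1 : ((Nat.sqrt y : ℕ) : ℝ) + 1 ≤ 4 * (√n / Real.log n) := by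
    set t : ℝ := (n : ℝ) ^ (1 / 8 : ℝ) with ht
    have ht0 : 0 < t := by positivity
    have ht8 : t ^ 8 = n := by
      rw [ht, ← Real.rpow_natCast, ← Real.rpow_mul hnpos.le]
      norm_num
    have ht1 : 1 ≤ t := by
      by_contra hlt
      push Not at hlt
      have : t ^ 8 < 1 := pow_lt_one₀ ht0.le hlt (by norm_num)
      linarith
    have hst : √(n : ℝ) = t ^ 4 := by
      rw [← ht8, show t ^ 8 = (t ^ 4) ^ 2 by ring, Real.sqrt_sq (by positivity)]
    have h1 : ((Nat.sqrt y : ℕ) : ℝ) ≤ 2 * t ^ 2 := by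
      have h2 : ((Nat.sqrt y : ℕ) : ℝ) ≤ √y := Real.nat_sqrt_le_real_sqrt
      have h3 : √(y : ℝ) ≤ √((2 * t ^ 2) ^ 2) := by
        apply Real.sqrt_le_sqrt
        rw [hst] at hy1
        nlinarith [show (0 : ℝ) ≤ t ^ 4 by positivity]
      rw [Real.sqrt_sq (by positivity)] at h3
      linarith
    rw [hst, ← mul_div_assoc, le_div_iff₀ hlogpos]
    have h4 : ((Nat.sqrt y : ℕ) : ℝ) + 1 ≤ 3 * t ^ 2 := by nlinarith
    calc (((Nat.sqrt y : ℕ) : ℝ) + 1) * Real.log n ≤ (3 * t ^ 2) * t := by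
          gcongr
      _ = 3 * t ^ 3 := by ring
      _ ≤ 4 * t ^ 4 := by nlinarith [show (0 : ℝ) ≤ t ^ 3 by positivity]
  push_cast
  linarith

/-- the bound is `O(sqrt n / log n)`, for all `n` -/
theorem bound_log : ∃ c : ℝ, 0 < c ∧ ∀ n : ℕ, 2 ≤ n → (bd n : ℝ) ≤ c * (√n / Real.log n) := by
  obtain ⟨n0, hn0⟩ := eventually_atTop.1 bound_ev
  refine ⟨max 72 (∑ n ∈ Finset.range n0, (bd n : ℝ)), by positivity, fun n hn => ?_⟩
  have hn2 : (2 : ℝ) ≤ n := by exact_mod_cast hn
  have hlogpos : 0 < Real.log n := Real.log_pos (by linarith)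
  have hone : 1 ≤ √n / Real.log n := by
    rw [one_le_div hlogpos]
    have h1 : Real.log (√n) ≤ √n / Real.exp 1 := by
      have h2 := Real.log_le_sub_one_of_pos (show (0 : ℝ) < √n / Real.exp 1 by positivity)
      rw [Real.log_div (by positivity) (Real.exp_pos 1).ne', Real.log_exp] at h2
      linarith
    rw [Real.log_sqrt (by positivity)] at h1
    have h3 : (2 : ℝ) ≤ Real.exp 1 := by
      have := Real.add_one_le_exp (1 : ℝ)
      linarith
    have h4 : √(n : ℝ) / Real.exp 1 ≤ √n / 2 := by gcongr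
    linarith
  rcases Nat.lt_or_ge n n0 with h | h
  · have h1 : (bd n : ℝ) ≤ ∑ n ∈ Finset.range n0, (bd n : ℝ) :=
      Finset.single_le_sum (f := fun n : ℕ => (bd n : ℝ))
        (fun i _ => Nat.cast_nonneg _) (Finset.mem_range.2 h)
    have h2 : (bd n : ℝ) ≤ max 72 (∑ n ∈ Finset.range n0, (bd n : ℝ)) :=
      h1.trans (le_max_right _ _)
    have h3 : 0 ≤ max 72 (∑ n ∈ Finset.range n0, (bd n : ℝ)) := (Nat.cast_nonneg _).trans h2
    nlinarith
  · refine (hn0 n h).trans ?_
    have h3 : (72 : ℝ) ≤ max 72 (∑ n ∈ Finset.range n0, (bd n : ℝ)) := le_max_left _ _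
    nlinarith

/-- with an absolute constant: at most `c sqrt n / log n` values up to `n` -/
theorem card_le_log : ∃ c : ℝ, 0 < c ∧ ∀ (f : ℕ → ℕ) (S : Set ℕ), (∀ m ∈ S, IsPrimePow m) →
    (∀ m ∈ S, m ≤ 2 * (f m + 1)) → (∀ r ∈ S, r.Prime → r ^ 2 ≤ 2 * (f r + 1)) →
    ∀ n : ℕ, 2 ≤ n → ((f '' S ∩ Set.Iic n).ncard : ℝ) ≤ c * (√n / Real.log n) := by
  obtain ⟨c, hc, h⟩ := bound_log
  refine ⟨c, hc, fun f S hS h1 h2 n hn => (le_trans ?_ (h n hn))⟩
  exact_mod_cast card_le_primePow hS h1 h2 n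

end Vale.Agent.P027.R4.H330
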