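import Vale.Agent.P027.R4.H330.Cnt

set_option linter.all false

/-! Row C of the part SP, without the logarithm: a set with one prime for each prime power, the
prime for a large prime `r` being at least `r ^ 2 / 2 - 1`, has at most `c sqrt n` elements up to
`n`. -/

namespace Vale.Agent.P027.R4.H330

open Filter Topology

/-- `x`, `x ^ 2`, `x ^ 2` times the least prime factor of `x` -/
def psi (p : ℕ × ℕ) : ℕ :=
  if p.2 = 0 then p.1 else if p.2 = 1 then p.1 ^ 2 else p.1 ^ 2 * p.1.minFac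

lemma psi_cover {r e y : ℕ} (hr : r.Prime) (he : 2 ≤ e) (h : r ^ e ≤ y) :
    ∃ x ≤ Nat.sqrt y, ∃ i < 3, psi (x, i) = r ^ e := by
  rcases Nat.even_or_odd' e with ⟨k, rfl | rfl⟩
  · refine ⟨r ^ k, ?_, 1, by norm_num, ?_⟩
    · rw [Nat.le_sqrt', ← pow_mul, mul_comm]
      exact h
    · simp only [psi]
      rw [if_neg (by norm_num), if_pos trivial, ← pow_mul, mul_comm]
  · have hk : k ≠ 0 := by omega
    refine ⟨r ^ k, ?_, 2, by norm_num, ?_⟩
    · rw [Nat.le_sqrt', ← pow_mul, mul_comm]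
      refine le_trans ?_ h
      exact Nat.pow_le_pow_right hr.pos (by omega)
    · simp only [psi]
      rw [if_neg (by norm_num), if_neg (by norm_num), hr.pow_minFac hk, ← pow_mul, mul_comm k 2,
        pow_succ]

/-- counting the values of `f` on a set of prime powers -/
theorem card_le_sqrt {f : ℕ → ℕ} {S : Set ℕ} {N0 : ℕ} (hS : ∀ m ∈ S, IsPrimePow m)
    (h1 : ∀ m ∈ S, m ≤ 2 * (f m + 1))
    (h2 : ∀ r ∈ S, r.Prime → N0 < r → r ^ 2 ≤ 2 * (f r + 1)) {n : ℕ} (hn : 1 ≤ n) :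
    (f '' S ∩ Set.Iic n).ncard ≤ (N0 + 13) * Nat.sqrt n := by
  set s' := Nat.sqrt (2 * n + 2) with hs'
  set A : Finset ℕ := Finset.range (N0 + 1) ∪
    (Finset.range (s' + 1) ×ˢ Finset.range 3).image psi with hA
  have hsub : f '' S ∩ Set.Iic n ⊆ ((A.image f : Finset ℕ) : Set ℕ) := by
    rintro q ⟨⟨m, hm, rfl⟩, hq⟩
    rw [Set.mem_Iic] at hq
    rw [Finset.coe_image]
    refine ⟨m, ?_, rfl⟩
    rw [Finset.mem_coe, hA, Finset.mem_union]
    have hm1 := h1 m hm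
    obtain ⟨r, e, hr, he, rfl⟩ := hS m hm
    have hrp : r.Prime := hr.nat_prime
    have hmain : ∀ x i : ℕ, x ≤ s' → i < 3 → psi (x, i) ∈
        (Finset.range (s' + 1) ×ˢ Finset.range 3).image psi := by
      intro x i hx hi
      refine Finset.mem_image_of_mem psi ?_
      rw [Finset.mem_product, Finset.mem_range, Finset.mem_range]
      exact ⟨Nat.lt_succ_of_le hx, hi⟩
    rcases Nat.lt_or_ge e 2 with he2 | he2
    · have he1 : e = 1 := by omega
      subst he1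
      rw [pow_one] at hm hm1 hq ⊢
      rcases Nat.lt_or_ge N0 r with hN | hN
      · right
        have h3 := h2 r hm hrp hN
        have h4 : r ≤ s' := by
          rw [hs', Nat.le_sqrt']
          omega
        have h5 := hmain r 0 h4 (by norm_num)
        simpa [psi] using h5
      · left
        rw [Finset.mem_range]
        omega
    · right
      obtain ⟨x, hx, i, hi, hxi⟩ := psi_cover hrp he2
        (show r ^ e ≤ 2 * n + 2 by omega)
      rw [← hxi]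
      exact hmain x i hx hi
  have hc1 : (f '' S ∩ Set.Iic n).ncard ≤ A.card := by
    calc (f '' S ∩ Set.Iic n).ncard ≤ ((A.image f : Finset ℕ) : Set ℕ).ncard :=
          Set.ncard_le_ncard hsub (Finset.finite_toSet _)
      _ = (A.image f).card := Set.ncard_coe_finset _
      _ ≤ A.card := Finset.card_image_le
  have hc2 : A.card ≤ (N0 + 1) + (s' + 1) * 3 := by
    calc A.card ≤ (Finset.range (N0 + 1)).card +
          ((Finset.range (s' + 1) ×ˢ Finset.range 3).image psi).card :=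
          Finset.card_union_le _ _
      _ ≤ (Finset.range (N0 + 1)).card + (Finset.range (s' + 1) ×ˢ Finset.range 3).card :=
          Nat.add_le_add_left Finset.card_image_le _
      _ = (N0 + 1) + (s' + 1) * 3 := by simp
  have hs : s' ≤ 2 * Nat.sqrt n + 1 :=
    (Nat.sqrt_le_sqrt (by omega)).trans (sqrt_four_mul_le n)
  have hs1 : 1 ≤ Nat.sqrt n := by
    rw [Nat.le_sqrt']
    omega
  set s := Nat.sqrt n
  calc (f '' S ∩ Set.Iic n).ncard ≤ (N0 + 1) + (s' + 1) * 3 := hc1.trans hc2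
    _ ≤ (N0 + 1) + (2 * s + 1 + 1) * 3 := by
        gcongr
    _ ≤ (N0 + 13) * s := by
        have e3 : (N0 + 1) * 1 ≤ (N0 + 1) * s := Nat.mul_le_mul_left _ hs1
        nlinarith [e3, hs1]

/-- counting, for all `n`, when the values are primes -/
theorem card_le_sqrt' {f : ℕ → ℕ} {S : Set ℕ} {N0 : ℕ} (hS : ∀ m ∈ S, IsPrimePow m)
    (hp : ∀ m ∈ S, (f m).Prime) (h1 : ∀ m ∈ S, m ≤ 2 * (f m + 1))
    (h2 : ∀ r ∈ S, r.Prime → N0 < r → r ^ 2 ≤ 2 * (f r + 1)) (n : ℕ) :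
    (f '' S ∩ Set.Iic n).ncard ≤ (N0 + 13) * Nat.sqrt n := by
  rcases Nat.eq_zero_or_pos n with rfl | hn
  · have : f '' S ∩ Set.Iic 0 = ∅ := by
      rw [Set.eq_empty_iff_forall_notMem]
      rintro q ⟨⟨m, hm, rfl⟩, hq⟩
      have h1 := (hp m hm).two_le
      rw [Set.mem_Iic] at hq
      omega
    rw [this, Set.ncard_empty]
    exact Nat.zero_le _
  · exact card_le_sqrt hS h1 h2 hn

/-- a square root bound gives density zero among the primes -/
theorem tendsto_div_primeCounting_of_sqrt {T : Set ℕ} {c : ℕ}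
    (h : ∀ n, (T ∩ Set.Iic n).ncard ≤ c * Nat.sqrt n) :
    Tendsto (fun n : ℕ => ((T ∩ Set.Iic n).ncard : ℝ) / (Nat.primeCounting n : ℝ)) atTop
      (𝓝 0) :=
  tendsto_div_primeCounting (c := c) fun n => (h n).trans
    (Nat.le_mul_of_pos_right _ (Nat.succ_pos _))

/-- the choice of one prime for each large odd prime power (one function, one bound) -/
theorem exists_f {O : ℕ → ℕ → Prop} {B N0 : ℕ}
    (hex : ∀ r e : ℕ, r.Prime → r ≠ 2 → 1 ≤ e → B < r ^ e → ∃ q : ℕ, q.Prime ∧ O q (r ^ e))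
    (hsp : ∀ r : ℕ, r.Prime → N0 < r → ∃ q : ℕ, q.Prime ∧ O q r ∧ r ^ 2 ≤ 2 * (q + 1))
    (htriv : ∀ q m : ℕ, q.Prime → O q m → m ≤ 2 * (q + 1)) :
    ∃ f : ℕ → ℕ, ∀ r e : ℕ, r.Prime → r ≠ 2 → 1 ≤ e → max B N0 < r ^ e →
      (f (r ^ e)).Prime ∧ O (f (r ^ e)) (r ^ e) ∧ r ^ e ≤ 2 * (f (r ^ e) + 1) ∧
      ((r ^ e).Prime → (r ^ e) ^ 2 ≤ 2 * (f (r ^ e) + 1)) := by
  have hf : ∀ m : ℕ, ∃ q : ℕ, (∃ r e : ℕ, r.Prime ∧ r ≠ 2 ∧ 1 ≤ e ∧ max B N0 < r ^ e ∧
      r ^ e = m) → q.Prime ∧ O q m ∧ m ≤ 2 * (q + 1) ∧ (m.Prime → m ^ 2 ≤ 2 * (q + 1)) := by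
    intro m
    by_cases hm : ∃ r e : ℕ, r.Prime ∧ r ≠ 2 ∧ 1 ≤ e ∧ max B N0 < r ^ e ∧ r ^ e = m
    · by_cases hp : m.Prime
      · have hN : N0 < m := by
          obtain ⟨r, e, -, -, -, hB, rfl⟩ := hm
          exact (le_max_right B N0).trans_lt hB
        obtain ⟨q, hq, hqm, hle⟩ := hsp m hp hN
        exact ⟨q, fun _ => ⟨hq, hqm, htriv q m hq hqm, fun _ => hle⟩⟩
      · obtain ⟨r, e, hr, hr2, he, hB, rfl⟩ := hm
        obtain ⟨q, hq, hqm⟩ := hex r e hr hr2 he ((le_max_left B N0).trans_lt hB)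
        exact ⟨q, fun _ => ⟨hq, hqm, htriv q _ hq hqm, fun h1 => (hp h1).elim⟩⟩
    · exact ⟨0, fun h => (hm h).elim⟩
  choose f hf using hf
  exact ⟨f, fun r e hr hr2 he hB => hf _ ⟨r, e, hr, hr2, he, hB, rfl⟩⟩

/-- the form of the final statement: one function `f`; every set of values at large odd prime
powers is thin -/
theorem thin_fun {O : ℕ → ℕ → Prop} {B N0 : ℕ}
    (hex : ∀ r e : ℕ, r.Prime → r ≠ 2 → 1 ≤ e → B < r ^ e → ∃ q : ℕ, q.Prime ∧ O q (r ^ e))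
    (hsp : ∀ r : ℕ, r.Prime → N0 < r → ∃ q : ℕ, q.Prime ∧ O q r ∧ r ^ 2 ≤ 2 * (q + 1))
    (htriv : ∀ q m : ℕ, q.Prime → O q m → m ≤ 2 * (q + 1)) :
    ∃ (f : ℕ → ℕ) (N : ℕ),
      (∀ r e : ℕ, r.Prime → r ≠ 2 → 1 ≤ e → N < r ^ e →
        (f (r ^ e)).Prime ∧ O (f (r ^ e)) (r ^ e)) ∧
      (∀ S : Set ℕ, (∀ m ∈ S, ∃ r e : ℕ, r.Prime ∧ r ≠ 2 ∧ 1 ≤ e ∧ N < r ^ e ∧ r ^ e = m) →
        (∀ n : ℕ, (f '' S ∩ Set.Iic n).ncard ≤ 13 * Nat.sqrt n) ∧
        Tendsto (fun n : ℕ => ((f '' S ∩ Set.Iic n).ncard : ℝ) / (Nat.primeCounting n : ℝ))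
          atTop (𝓝 0)) := by
  obtain ⟨f, hf⟩ := exists_f hex hsp htriv
  refine ⟨f, max B N0, fun r e hr hr2 he hB => ⟨(hf r e hr hr2 he hB).1,
    (hf r e hr hr2 he hB).2.1⟩, fun S hS => ?_⟩
  have hcount : ∀ n : ℕ, (f '' S ∩ Set.Iic n).ncard ≤ (0 + 13) * Nat.sqrt n := by
    refine card_le_sqrt' ?_ ?_ ?_ ?_
    · intro m hm
      obtain ⟨r, e, hr, hr2, he, hB, rfl⟩ := hS m hm
      exact hr.isPrimePow.pow (by omega)
    · intro m hm
      obtain ⟨r, e, hr, hr2, he, hB, rfl⟩ := hS m hm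
      exact (hf r e hr hr2 he hB).1
    · intro m hm
      obtain ⟨r, e, hr, hr2, he, hB, rfl⟩ := hS m hm
      exact (hf r e hr hr2 he hB).2.2.1
    · intro m hm hmp _
      obtain ⟨r, e, hr, hr2, he, hB, rfl⟩ := hS m hm
      exact (hf r e hr hr2 he hB).2.2.2 hmp
  rw [Nat.zero_add] at hcount
  exact ⟨hcount, tendsto_div_primeCounting_of_sqrt hcount⟩

end Vale.Agent.P027.R4.H330
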