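import Mathlib
import Vale.Agent.P027.Bdl.B1

/-!
P027-THIN, row K (helper330): the coordinates of `(2 a + 1) P0` on `y ^ 2 = x ^ 3 - 2 x` are
primitive recursive in `a`.
-/

namespace Vale.Agent.P027.H330

open Vale.Agent.P345

/-- integers as differences of natural numbers -/
abbrev ZZ : Type := ℕ × ℕ

/-- the integer of a pair -/
def zv (a : ZZ) : ℤ := (a.1 : ℤ) - a.2

def zadd (a b : ZZ) : ZZ := (a.1 + b.1, a.2 + b.2)
def zmul (a b : ZZ) : ZZ := (a.1 * b.1 + a.2 * b.2, a.1 * b.2 + a.2 * b.1)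
def zneg (a : ZZ) : ZZ := (a.2, a.1)

theorem zv_add (a b : ZZ) : zv (zadd a b) = zv a + zv b := by
  simp only [zv, zadd]; push_cast; ring

theorem zv_mul (a b : ZZ) : zv (zmul a b) = zv a * zv b := by
  simp only [zv, zmul]; push_cast; ring

theorem zv_neg (a : ZZ) : zv (zneg a) = - zv a := by
  simp only [zv, zneg]; ring

theorem prim_add : Primrec₂ zadd := by
  unfold zadd
  exact Primrec.pair
    (Primrec.nat_add.comp (Primrec.fst.comp Primrec.fst) (Primrec.fst.comp Primrec.snd))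
    (Primrec.nat_add.comp (Primrec.snd.comp Primrec.fst) (Primrec.snd.comp Primrec.snd))

theorem prim_mul : Primrec₂ zmul := by
  unfold zmul
  have a1 : Primrec (fun p : ZZ × ZZ => p.1.1) := Primrec.fst.comp Primrec.fst
  have a2 : Primrec (fun p : ZZ × ZZ => p.1.2) := Primrec.snd.comp Primrec.fst
  have b1 : Primrec (fun p : ZZ × ZZ => p.2.1) := Primrec.fst.comp Primrec.snd
  have b2 : Primrec (fun p : ZZ × ZZ => p.2.2) := Primrec.snd.comp Primrec.snd
  exact Primrec.pair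
    (Primrec.nat_add.comp (Primrec.nat_mul.comp a1 b1) (Primrec.nat_mul.comp a2 b2))
    (Primrec.nat_add.comp (Primrec.nat_mul.comp a1 b2) (Primrec.nat_mul.comp a2 b1))

theorem prim_neg : Primrec zneg := by
  unfold zneg
  exact Primrec.pair Primrec.snd Primrec.fst

/-- the state: `x = X / Z`, `y = Y / Z` -/
abbrev St : Type := ZZ × ZZ × ZZ

def eA (s : St) : ZZ := zadd (zmul (8, 0) s.2.1) (zmul (21, 0) s.2.2)
def eB (s : St) : ZZ := zadd (zmul (8, 0) s.1) (zmul (0, 18) s.2.2)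
def eX (s : St) : ZZ :=
  zadd (zmul (zmul (4, 0) s.2.2) (zmul (eA s) (eA s)))
    (zneg (zmul (zadd (zmul (4, 0) s.1) (zmul (9, 0) s.2.2)) (zmul (eB s) (eB s))))
def eZ (s : St) : ZZ := zmul (zmul (4, 0) s.2.2) (zmul (eB s) (eB s))

/-- addition of `2 P0 = (9/4, -21/8)` -/
def step (s : St) : St :=
  (zmul (eX s) (zmul (eB s) s.2.2),
   zadd (zmul (eA s) (zadd (zmul s.1 (eZ s)) (zneg (zmul (eX s) s.2.2))))
     (zneg (zmul (eB s) (zmul (eZ s) s.2.1))),
   zmul (eB s) (zmul s.2.2 (eZ s)))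

def st0 : St := ((0, 1), (1, 0), (1, 0))

/-- the state of `(2 a + 1) P0` -/
def st (a : ℕ) : St := step^[a] st0

theorem prim_eA : Primrec eA := by
  unfold eA
  exact prim_add.comp (prim_mul.comp (Primrec.const _) (Primrec.fst.comp Primrec.snd))
    (prim_mul.comp (Primrec.const _) (Primrec.snd.comp Primrec.snd))

theorem prim_eB : Primrec eB := by
  unfold eB
  exact prim_add.comp (prim_mul.comp (Primrec.const _) Primrec.fst)
    (prim_mul.comp (Primrec.const _) (Primrec.snd.comp Primrec.snd))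

theorem prim_eX : Primrec eX := by
  unfold eX
  exact prim_add.comp
    (prim_mul.comp (prim_mul.comp (Primrec.const _) (Primrec.snd.comp Primrec.snd))
      (prim_mul.comp prim_eA prim_eA))
    (prim_neg.comp (prim_mul.comp
      (prim_add.comp (prim_mul.comp (Primrec.const _) Primrec.fst)
        (prim_mul.comp (Primrec.const _) (Primrec.snd.comp Primrec.snd)))
      (prim_mul.comp prim_eB prim_eB)))

theorem prim_eZ : Primrec eZ := by
  unfold eZ
  exact prim_mul.comp (prim_mul.comp (Primrec.const _) (Primrec.snd.comp Primrec.snd))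
    (prim_mul.comp prim_eB prim_eB)

theorem prim_step : Primrec step := by
  unfold step
  have h1 : Primrec (fun s : St => s.1) := Primrec.fst
  have h2 : Primrec (fun s : St => s.2.1) := Primrec.fst.comp Primrec.snd
  have h3 : Primrec (fun s : St => s.2.2) := Primrec.snd.comp Primrec.snd
  refine Primrec.pair (prim_mul.comp prim_eX (prim_mul.comp prim_eB h3)) (Primrec.pair ?_ ?_)
  · exact prim_add.comp
      (prim_mul.comp prim_eA (prim_add.comp (prim_mul.comp h1 prim_eZ)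
        (prim_neg.comp (prim_mul.comp prim_eX h3))))
      (prim_neg.comp (prim_mul.comp prim_eB (prim_mul.comp prim_eZ h2)))
  · exact prim_mul.comp prim_eB (prim_mul.comp h3 prim_eZ)

theorem prim_st : Primrec st := by
  have h : Primrec (fun a : ℕ => step^[a] st0) :=
    Primrec.nat_iterate Primrec.id (Primrec.const st0) (prim_step.comp Primrec.snd).to₂
  exact h

/-- explicit addition formula, different x-coordinates -/
theorem pt_add_ne {x y x' y' : ℚ} (h : y ^ 2 = x ^ 3 - 2 * x) (h' : y' ^ 2 = x' ^ 3 - 2 * x')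
    (hne : x ≠ x') :
    ∃ h'' : (-((y - y') / (x - x') * ((((y - y') / (x - x')) ^ 2 - x - x') - x) + y)) ^ 2 =
        (((y - y') / (x - x')) ^ 2 - x - x') ^ 3 - 2 * (((y - y') / (x - x')) ^ 2 - x - x'),
      pt x y h + pt x' y' h' = pt (((y - y') / (x - x')) ^ 2 - x - x')
        (-((y - y') / (x - x') * ((((y - y') / (x - x')) ^ 2 - x - x') - x) + y)) h'' := by
  have hadd := WeierstrassCurve.Affine.Point.add_of_X_ne
    (h₁ := (ec_nonsingular_iff x y).2 h) (h₂ := (ec_nonsingular_iff x' y').2 h') hne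
  have hs : EC.slope x x' y y' = (y - y') / (x - x') :=
    WeierstrassCurve.Affine.slope_of_X_ne hne
  have hX : EC.addX x x' (EC.slope x x' y y') = ((y - y') / (x - x')) ^ 2 - x - x' := by
    rw [hs]
    simp only [WeierstrassCurve.Affine.addX, EC]
    ring
  have hY : EC.addY x x' y (EC.slope x x' y y') =
      -((y - y') / (x - x') * ((((y - y') / (x - x')) ^ 2 - x - x') - x) + y) := by
    rw [WeierstrassCurve.Affine.addY, WeierstrassCurve.Affine.negAddY, negY_ec, hX, hs]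
  have hP : pt x y h + pt x' y' h' = .some _ _ (WeierstrassCurve.Affine.nonsingular_add
      ((ec_nonsingular_iff x y).2 h) ((ec_nonsingular_iff x' y').2 h')
      fun hxy => hne hxy.left) := hadd
  have hn := WeierstrassCurve.Affine.nonsingular_add
      ((ec_nonsingular_iff x y).2 h) ((ec_nonsingular_iff x' y').2 h')
      fun hxy => hne hxy.left
  rw [ec_nonsingular_iff, hX, hY] at hn
  refine ⟨hn, ?_⟩
  rw [hP]
  unfold pt
  rw [WeierstrassCurve.Affine.Point.some.injEq]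
  exact ⟨hX, hY⟩

theorem two_P0 : (2 : ℤ) • P0 = pt (9 / 4) (-21 / 8) (by norm_num) := by
  rw [two_zsmul]
  have hne : (1 : ℚ) ≠ EC.negY (-1) 1 := by rw [negY_ec]; norm_num
  have hadd := WeierstrassCurve.Affine.Point.add_self_of_Y_ne
    (h₁ := (ec_nonsingular_iff (-1) 1).2 (by norm_num)) hne
  have hs : EC.slope (-1) (-1) 1 1 = 1 / 2 := by
    rw [WeierstrassCurve.Affine.slope_of_Y_ne rfl hne, negY_ec]
    simp only [EC]
    norm_num
  have hX : EC.addX (-1) (-1) (EC.slope (-1) (-1) 1 1) = 9 / 4 := by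
    rw [hs]
    simp only [WeierstrassCurve.Affine.addX, EC]
    norm_num
  have hY : EC.addY (-1) (-1) 1 (EC.slope (-1) (-1) 1 1) = -21 / 8 := by
    rw [WeierstrassCurve.Affine.addY, WeierstrassCurve.Affine.negAddY, negY_ec, hX, hs]
    norm_num
  have hP : P0 + P0 = .some _ _ (WeierstrassCurve.Affine.nonsingular_add
      ((ec_nonsingular_iff (-1) 1).2 (by norm_num)) ((ec_nonsingular_iff (-1) 1).2 (by norm_num))
      fun hxy => hne hxy.right) := hadd
  rw [hP]
  unfold pt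
  rw [WeierstrassCurve.Affine.Point.some.injEq]
  exact ⟨hX, hY⟩

theorem val_step (s : St) (hZ : zv s.2.2 ≠ 0) (hB : 4 * zv s.1 - 9 * zv s.2.2 ≠ 0) :
    zv (step s).2.2 ≠ 0 ∧
    (zv (step s).1 : ℚ) / zv (step s).2.2 =
      ((((zv s.2.1 : ℚ) / zv s.2.2) - (-21 / 8)) / (((zv s.1 : ℚ) / zv s.2.2) - 9 / 4)) ^ 2 -
        (zv s.1 : ℚ) / zv s.2.2 - 9 / 4 ∧
    (zv (step s).2.1 : ℚ) / zv (step s).2.2 =
      -(((((zv s.2.1 : ℚ) / zv s.2.2) - (-21 / 8)) / (((zv s.1 : ℚ) / zv s.2.2) - 9 / 4)) *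
        ((((((zv s.2.1 : ℚ) / zv s.2.2) - (-21 / 8)) / (((zv s.1 : ℚ) / zv s.2.2) - 9 / 4)) ^ 2 -
          (zv s.1 : ℚ) / zv s.2.2 - 9 / 4) - (zv s.1 : ℚ) / zv s.2.2) + (zv s.2.1 : ℚ) / zv s.2.2) := by
  have c8 : zv (8, 0) = 8 := rfl
  have c21 : zv (21, 0) = 21 := rfl
  have c18 : zv (0, 18) = -18 := rfl
  have c4 : zv (4, 0) = 4 := rfl
  have c9 : zv (9, 0) = 9 := rfl
  have hA' : zv (eA s) = 8 * zv s.2.1 + 21 * zv s.2.2 := by
    simp only [eA, zv_add, zv_mul, c8, c21]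
  have hB' : zv (eB s) = 8 * zv s.1 - 18 * zv s.2.2 := by
    simp only [eB, zv_add, zv_mul, c8, c18]; ring
  have hX' : zv (eX s) = 4 * zv s.2.2 * zv (eA s) ^ 2 -
      (4 * zv s.1 + 9 * zv s.2.2) * zv (eB s) ^ 2 := by
    simp only [eX, zv_add, zv_mul, zv_neg, c4, c9]; ring
  have hZ' : zv (eZ s) = 4 * zv s.2.2 * zv (eB s) ^ 2 := by
    simp only [eZ, zv_mul, c4]; ring
  have h1 : zv (step s).1 = zv (eX s) * (zv (eB s) * zv s.2.2) := by
    simp only [step, zv_mul]
  have h2 : zv (step s).2.1 = zv (eA s) * (zv s.1 * zv (eZ s) - zv (eX s) * zv s.2.2) -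
      zv (eB s) * (zv (eZ s) * zv s.2.1) := by
    simp only [step, zv_mul, zv_add, zv_neg]; ring
  have h3 : zv (step s).2.2 = zv (eB s) * (zv s.2.2 * zv (eZ s)) := by
    simp only [step, zv_mul]
  have hB0 : zv (eB s) ≠ 0 := by
    rw [hB']; intro h; exact hB (by linarith)
  have hZ0 : zv (step s).2.2 ≠ 0 := by
    rw [h3, hZ']
    exact mul_ne_zero hB0 (mul_ne_zero hZ (mul_ne_zero (mul_ne_zero (by norm_num) hZ)
      (pow_ne_zero 2 hB0)))
  refine ⟨hZ0, ?_⟩
  rw [h1, h2, h3, hX', hZ']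
  generalize hAv : zv (eA s) = A at *
  generalize hBv : zv (eB s) = B at *
  generalize hXv : zv s.1 = X at *
  generalize hYv : zv s.2.1 = Y at *
  generalize hZv : zv s.2.2 = Z at *
  have qZ : (Z : ℚ) ≠ 0 := by exact_mod_cast hZ
  have qB : (B : ℚ) ≠ 0 := by exact_mod_cast hB0
  have eA' : (A : ℚ) = 8 * Y + 21 * Z := by exact_mod_cast hA'
  have eB' : (B : ℚ) = 8 * X - 18 * Z := by exact_mod_cast hB'
  have hden : (X : ℚ) / Z - 9 / 4 = B / (8 * Z) := by
    rw [eB']; field_simp; ring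
  have hnum : (Y : ℚ) / Z - (-21 / 8) = A / (8 * Z) := by
    rw [eA']; field_simp; ring
  have hlam : ((Y : ℚ) / Z - (-21 / 8)) / ((X : ℚ) / Z - 9 / 4) = A / B := by
    rw [hden, hnum]; field_simp
  rw [hlam]
  push_cast
  constructor
  · field_simp
    ring
  · field_simp
    ring

theorem st_succ (a : ℕ) : st (a + 1) = step (st a) := by
  unfold st
  rw [Function.iterate_succ_apply']

/-- **row K**: the coordinates of `(2 a + 1) P0` -/
theorem st_spec (a : ℕ) : zv (st a).2.2 ≠ 0 ∧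
    ∃ h : ((zv (st a).2.1 : ℚ) / zv (st a).2.2) ^ 2 = ((zv (st a).1 : ℚ) / zv (st a).2.2) ^ 3 -
        2 * ((zv (st a).1 : ℚ) / zv (st a).2.2),
      (2 * (a : ℤ) + 1) • P0 = pt ((zv (st a).1 : ℚ) / zv (st a).2.2)
        ((zv (st a).2.1 : ℚ) / zv (st a).2.2) h := by
  induction a with
  | zero =>
    have h1 : zv (st 0).1 = -1 := rfl
    have h2 : zv (st 0).2.1 = 1 := rfl
    have h3 : zv (st 0).2.2 = 1 := rfl
    refine ⟨by rw [h3]; norm_num, ?_⟩
    rw [h1, h2, h3]
    refine ⟨by norm_num, ?_⟩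
    rw [Nat.cast_zero, mul_zero, zero_add, one_zsmul]
    unfold P0
    exact pt_congr (by norm_num) (by norm_num)
  | succ a ih =>
    obtain ⟨hZ, h, hP⟩ := ih
    have hne : (zv (st a).1 : ℚ) / zv (st a).2.2 ≠ 9 / 4 := by
      intro he
      have k1 : HasX ((2 * (a : ℤ) + 1) • P0) (9 / 4) := ⟨_, by rw [← he]; exact h, by
        rw [hP]; exact pt_congr he rfl⟩
      have k2 : HasX ((2 : ℤ) • P0) (9 / 4) := ⟨_, _, two_P0⟩
      rcases k1.eq_or_neg k2 with k | k
      · refine Vale.Agent.P027.zsmul_P0_ne_zero (k := 2 * (a : ℤ) + 1 - 2) (by omega) ?_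
        rw [sub_zsmul, k, add_neg_cancel]
      · refine Vale.Agent.P027.zsmul_P0_ne_zero (k := 2 * (a : ℤ) + 1 + 2) (by omega) ?_
        rw [add_zsmul, k, neg_add_cancel]
    have hB : 4 * zv (st a).1 - 9 * zv (st a).2.2 ≠ 0 := by
      intro h0
      apply hne
      have qZ : (zv (st a).2.2 : ℚ) ≠ 0 := by exact_mod_cast hZ
      have h1 : 4 * (zv (st a).1 : ℚ) - 9 * zv (st a).2.2 = 0 := by exact_mod_cast h0
      rw [div_eq_iff qZ]
      linarith
    obtain ⟨s1, s2, s3⟩ := val_step (st a) hZ hB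
    rw [st_succ]
    refine ⟨s1, ?_⟩
    rw [s2, s3]
    obtain ⟨h'', e⟩ := pt_add_ne h (show (-21 / 8 : ℚ) ^ 2 = (9 / 4) ^ 3 - 2 * (9 / 4) by norm_num)
      hne
    refine ⟨h'', ?_⟩
    rw [show 2 * ((a + 1 : ℕ) : ℤ) + 1 = (2 * (a : ℤ) + 1) + 2 by push_cast; ring, add_zsmul, hP,
      two_P0]
    exact e

theorem encode_int (p q : ℕ) : Encodable.encode ((p : ℤ) - q) =
    if q ≤ p then 2 * (p - q) else 2 * (q - p - 1) + 1 := by
  split_ifs with h
  · obtain ⟨n, rfl⟩ := Nat.exists_eq_add_of_le h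
    rw [show ((q + n : ℕ) : ℤ) - q = Int.ofNat n by simp, Nat.add_sub_cancel_left]
    rfl
  · obtain ⟨n, hn⟩ := Nat.exists_eq_add_of_lt (not_le.1 h)
    rw [show (p : ℤ) - q = Int.negSucc n by rw [hn]; push_cast; omega,
      show q - p - 1 = n by omega]
    rfl

theorem prim_zv : Primrec zv := by
  rw [← Primrec.encode_iff]
  have h : Primrec (fun a : ZZ => if a.2 ≤ a.1 then 2 * (a.1 - a.2) else
      2 * (a.2 - a.1 - 1) + 1) := by
    refine Primrec.ite (Primrec.nat_le.comp Primrec.snd Primrec.fst) ?_ ?_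
    · exact Primrec.nat_mul.comp (Primrec.const 2) (Primrec.nat_sub.comp Primrec.fst Primrec.snd)
    · exact Primrec.nat_add.comp (Primrec.nat_mul.comp (Primrec.const 2)
        (Primrec.nat_sub.comp (Primrec.nat_sub.comp Primrec.snd Primrec.fst) (Primrec.const 1)))
        (Primrec.const 1)
  refine h.of_eq fun a => ?_
  unfold zv
  exact (encode_int a.1 a.2).symm

/-- **row K, wanted form** -/
theorem exists_coord : ∃ f g h : ℕ → ℤ, Computable f ∧ Computable g ∧ Computable h ∧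
    ∀ a : ℕ, h a ≠ 0 ∧
      ∃ e : ((g a : ℚ) / h a) ^ 2 = ((f a : ℚ) / h a) ^ 3 - 2 * ((f a : ℚ) / h a),
        (2 * (a : ℤ) + 1) • P0 = pt ((f a : ℚ) / h a) ((g a : ℚ) / h a) e := by
  refine ⟨fun a => zv (st a).1, fun a => zv (st a).2.1, fun a => zv (st a).2.2, ?_, ?_, ?_,
    fun a => st_spec a⟩
  · exact (prim_zv.comp (Primrec.fst.comp prim_st)).to_comp
  · exact (prim_zv.comp (Primrec.fst.comp (Primrec.snd.comp prim_st))).to_comp
  · exact (prim_zv.comp (Primrec.snd.comp (Primrec.snd.comp prim_st))).to_comp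

end Vale.Agent.P027.H330
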