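import Mathlib

/-!
P027-THIN, row K (helper330): clearing the denominators of parameters in an integer polynomial.
-/

namespace Vale.Agent.P027.H330

open MvPolynomial

/-- homogenisation in the parameters -/
theorem homog {k : ℕ} {τ : Type} (F : MvPolynomial ((Fin k × Fin 2) ⊕ τ) ℤ) :
    ∃ (N : ℕ) (G : MvPolynomial ((Fin k × Fin 3) ⊕ τ) ℤ), ∀ (c : Fin k × Fin 3 → ℚ) (t : τ → ℚ),
      (∀ i, c (i, 2) ≠ 0) →
      aeval (Sum.elim c t) G = (∏ i, c (i, 2)) ^ N *
        aeval (Sum.elim (fun p : Fin k × Fin 2 => c (p.1, p.2.castSucc) / c (p.1, 2)) t) F := by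
  induction F using MvPolynomial.induction_on with
  | C a =>
    refine ⟨0, C a, fun c t _ => ?_⟩
    simp
  | add p q hp hq =>
    obtain ⟨N, G, hG⟩ := hp
    obtain ⟨N', G', hG'⟩ := hq
    refine ⟨N + N', (∏ i, X (Sum.inl (i, 2))) ^ N' * G + (∏ i, X (Sum.inl (i, 2))) ^ N * G',
      fun c t hc => ?_⟩
    rw [map_add, map_mul, map_mul, map_add, hG c t hc, hG' c t hc, map_pow, map_pow, map_prod]
    simp only [aeval_X, Sum.elim_inl]
    ring
  | mul_X p j hp =>
    obtain ⟨N, G, hG⟩ := hp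
    rcases j with ⟨i, b⟩ | t'
    · refine ⟨N + 1, G * (X (Sum.inl (i, b.castSucc)) *
        ∏ i' ∈ Finset.univ.erase i, X (Sum.inl (i', 2))), fun c t hc => ?_⟩
      rw [map_mul, map_mul, map_prod, hG c t hc, map_mul, ← Finset.mul_prod_erase Finset.univ
        (fun i => c (i, 2)) (Finset.mem_univ i)]
      simp only [aeval_X, Sum.elim_inl]
      have h := hc i
      field_simp
      ring
    · refine ⟨N, G * X (Sum.inr t'), fun c t hc => ?_⟩
      rw [map_mul, map_mul, hG c t hc]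
      simp only [aeval_X, Sum.elim_inr]
      ring

/-- one triple of parameters -/
theorem homog_one {τ : Type} (F : MvPolynomial ((Fin 1 × Fin 2) ⊕ τ) ℤ) :
    ∃ G : MvPolynomial (Fin 3 ⊕ τ) ℤ, ∀ (f g h : ℚ) (t : τ → ℚ), h ≠ 0 →
      (aeval (Sum.elim ![f, g, h] t) G = 0 ↔
        aeval (Sum.elim (fun p : Fin 1 × Fin 2 => ![f / h, g / h] p.2) t) F = 0) := by
  obtain ⟨N, G, hG⟩ := homog F
  refine ⟨rename (Sum.map Prod.snd id) G, fun f g h t hh => ?_⟩
  have h1 := hG (fun p => ![f, g, h] p.2) t (fun i => by simpa using hh)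
  have e1 : (Sum.elim ![f, g, h] t) ∘ (Sum.map Prod.snd id : (Fin 1 × Fin 3) ⊕ τ → Fin 3 ⊕ τ) =
      Sum.elim (fun p : Fin 1 × Fin 3 => ![f, g, h] p.2) t := by
    ext x
    rcases x with x | x <;> rfl
  have e2 : (fun p : Fin 1 × Fin 2 => (fun p : Fin 1 × Fin 3 => ![f, g, h] p.2)
      (p.1, p.2.castSucc) / (fun p : Fin 1 × Fin 3 => ![f, g, h] p.2) (p.1, 2)) =
      fun p : Fin 1 × Fin 2 => ![f / h, g / h] p.2 := by
    ext ⟨i, j⟩
    fin_cases j <;> rfl
  rw [aeval_rename, e1, h1, e2]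
  have h2 : (∏ i : Fin 1, (fun p : Fin 1 × Fin 3 => ![f, g, h] p.2) (i, 2)) ^ N ≠ 0 := by
    apply pow_ne_zero
    simpa using hh
  constructor
  · intro h3
    exact (mul_eq_zero.1 h3).resolve_left h2
  · intro h3
    rw [h3, mul_zero]

end Vale.Agent.P027.H330
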