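import Vale.Agent.P027.R4.H788.Defs
import Vale.Agent.P027.R4.H330.CntS

set_option linter.all false

/-! The last part of the final statement: for every `C` there is a set of at most `13 sqrt n`
primes up to `n` such that every set `R` with the points `x (C 2 ^ k)` whose denominators avoid
these primes is in the class. -/

namespace Vale.Agent.P027.R4.H330

open Filter Topology
open Vale.Agent.P345 Vale.Agent.P027 Vale.Agent.P027.HT Vale.Agent.P027.D1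

theorem part5 (hH : RowH)
    (hSP : ∃ N0 : ℕ, ∀ r : ℕ, r.Prime → N0 < r → ∃ q : ℕ, q.Prime ∧ Ord q r ∧
      r ^ 2 ≤ 2 * (q + 1))
    (hT : ∀ q m : ℕ, q.Prime → Ord q m → m ≤ 2 * (q + 1)) :
    ∃ (f : ℕ → ℕ) (N : ℕ),
      (∀ r e : ℕ, r.Prime → r ≠ 2 → 1 ≤ e → N < r ^ e →
        (f (r ^ e)).Prime ∧ Ord (f (r ^ e)) (r ^ e)) ∧
      ∀ C : ℕ, 0 < C → ∀ T : Set ℕ,
        T = {q | ∃ r e : ℕ, r.Prime ∧ ¬ r ∣ 2 * C ∧ 1 ≤ e ∧ N < r ^ e ∧ q = f (r ^ e)} →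
        (∀ q ∈ T, q.Prime) ∧
        (∀ n : ℕ, (T ∩ Set.Iic n).ncard ≤ 13 * Nat.sqrt n) ∧
        Tendsto (fun n : ℕ => ((T ∩ Set.Iic n).ncard : ℝ) / (Nat.primeCounting n : ℝ)) atTop
          (𝓝 0) ∧
        (∀ q ∈ T, ∀ k : ℕ, ¬ q ∣ (xc (((C : ℤ) * 2 ^ k) • P0)).den) ∧
        ∀ R : Set ℚ, (∀ z : ℤ, (z : ℚ) ∈ R) →
          (∀ k : ℕ, 1 ≤ k → xc (((C : ℤ) * 2 ^ k) • P0) ∈ R) →
          (∀ q ∈ T, ∀ t ∈ R, ¬ q ∣ t.den) → Cls N C R := by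
  obtain ⟨B, hB⟩ := hH
  obtain ⟨N0, hN0⟩ := hSP
  obtain ⟨f, N, hf, hS⟩ := thin_fun (O := Ord) hB hN0 hT
  refine ⟨f, N, hf, fun C hC T hTdef => ?_⟩
  have hr2 : ∀ r : ℕ, ¬ r ∣ 2 * C → r ≠ 2 := by
    rintro r h rfl
    exact h (Dvd.intro C rfl)
  set S : Set ℕ := {m | ∃ r e : ℕ, r.Prime ∧ ¬ r ∣ 2 * C ∧ 1 ≤ e ∧ N < r ^ e ∧ r ^ e = m}
    with hSdef
  have hTS : T = f '' S := by
    rw [hTdef]
    ext q
    constructor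
    · rintro ⟨r, e, hr, hrC, he, hN, rfl⟩
      exact ⟨r ^ e, ⟨r, e, hr, hrC, he, hN, rfl⟩, rfl⟩
    · rintro ⟨m, ⟨r, e, hr, hrC, he, hN, rfl⟩, rfl⟩
      exact ⟨r, e, hr, hrC, he, hN, rfl⟩
  have hSS := hS S (fun m hm => by
    obtain ⟨r, e, hr, hrC, he, hN, rfl⟩ := hm
    exact ⟨r, e, hr, hr2 r hrC, he, hN, rfl⟩)
  rw [← hTS] at hSS
  have hmem : ∀ q ∈ T, ∃ r e : ℕ, r.Prime ∧ ¬ r ∣ 2 * C ∧ 1 ≤ e ∧ N < r ^ e ∧ q.Prime ∧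
      Ord q (r ^ e) := by
    intro q hq
    rw [hTdef] at hq
    obtain ⟨r, e, hr, hrC, he, hN, rfl⟩ := hq
    have h := hf r e hr (hr2 r hrC) he hN
    exact ⟨r, e, hr, hrC, he, hN, h.1, h.2⟩
  refine ⟨fun q hq => ?_, hSS.1, hSS.2, fun q hq k hdvd => ?_, fun R hZ hx hR => ?_⟩
  · obtain ⟨r, e, -, -, -, -, h, -⟩ := hmem q hq
    exact h
  · obtain ⟨r, e, hr, hrC, he, hN, hqp, hord⟩ := hmem q hq
    have h1 : ((r ^ e : ℕ) : ℤ) ∣ (C : ℤ) * 2 ^ k := (hord.2 _).1 (Or.inr hdvd)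
    have h2 : r ^ e ∣ C * 2 ^ k := by
      rw [← Int.natCast_dvd_natCast]
      push_cast at h1 ⊢
      exact h1
    have h3 : r ∣ C * 2 ^ k := (dvd_pow_self r (by omega)).trans h2
    rcases (Nat.Prime.dvd_mul hr).1 h3 with h | h
    · exact hrC (h.mul_left 2)
    · exact hr2 r hrC ((Nat.prime_dvd_prime_iff_eq hr Nat.prime_two).1 (hr.dvd_of_dvd_pow h))
  · refine ⟨hC, hZ, fun k hk => hx k hk, fun r e hr hrC he hN => ?_⟩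
    have h := hf r e hr (hr2 r hrC) he hN
    refine ⟨f (r ^ e), h.1, ⟨1, one_dvd _, by rw [one_mul]; exact h.2⟩, ?_⟩
    apply hR
    rw [hTdef]
    exact ⟨r, e, hr, hrC, he, hN, rfl⟩

end Vale.Agent.P027.R4.H330
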