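import Vale.Agent.P027.R4.H788.Sparse
import Vale.Agent.P027.R4.H330.CntS

set_option linter.all false

/-! The sparse set `TS C N` of helper788 has at most `13 sqrt n` elements up to `n`. -/

namespace Vale.Agent.P027.R4.H330

open Filter Topology
open Vale.Agent.P345 Vale.Agent.P027 Vale.Agent.P027.HT Vale.Agent.P027.D1

theorem thin_TS (hH : RowH)
    (hSP : ∃ N0 : ℕ, ∀ r : ℕ, r.Prime → N0 < r → ∃ q : ℕ, q.Prime ∧ Ord q r ∧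
      r ^ 2 ≤ 2 * (q + 1))
    (hT : ∀ q m : ℕ, q.Prime → Ord q m → m ≤ 2 * (q + 1)) :
    ∃ N0 : ℕ,
      (∀ r e : ℕ, r.Prime → r ≠ 2 → 1 ≤ e → N0 < r ^ e → ∃ q : ℕ, q.Prime ∧ Ord q (r ^ e)) ∧
      ∀ N : ℕ, N0 ≤ N → ∀ C : ℕ,
        (∀ n : ℕ, (TS C N ∩ Set.Iic n).ncard ≤ 13 * Nat.sqrt n) ∧
        Tendsto (fun n : ℕ => ((TS C N ∩ Set.Iic n).ncard : ℝ) / (Nat.primeCounting n : ℝ))
          atTop (𝓝 0) := by
  obtain ⟨B, hB⟩ := hH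
  obtain ⟨N1, hN1⟩ := hSP
  have hB' : ∀ r e : ℕ, r.Prime → r ≠ 2 → 1 ≤ e → max B N1 < r ^ e →
      ∃ q : ℕ, q.Prime ∧ Ord q (r ^ e) := fun r e hr hr2 he h =>
    hB r e hr hr2 he ((le_max_left _ _).trans_lt h)
  refine ⟨max B N1, hB', fun N hN C => ?_⟩
  have hN' : ∀ r e : ℕ, r.Prime → r ≠ 2 → 1 ≤ e → N < r ^ e →
      ∃ q : ℕ, q.Prime ∧ Ord q (r ^ e) := fun r e hr hr2 he h =>
    hB' r e hr hr2 he (hN.trans_lt h)
  have hr2 : ∀ r : ℕ, ¬ r ∣ 2 * C → r ≠ 2 := by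
    rintro r h rfl
    exact h (Dvd.intro C rfl)
  set S : Set ℕ := {m | ∃ r e : ℕ, r.Prime ∧ ¬ r ∣ 2 * C ∧ 1 ≤ e ∧ N < r ^ e ∧ r ^ e = m}
    with hSdef
  have hTS : TS C N = bigQ '' S := by
    ext q
    constructor
    · rintro ⟨r, e, hr, hrC, he, hN, rfl⟩
      exact ⟨r ^ e, ⟨r, e, hr, hrC, he, hN, rfl⟩, rfl⟩
    · rintro ⟨m, ⟨r, e, hr, hrC, he, hN, rfl⟩, rfl⟩
      exact ⟨r, e, hr, hrC, he, hN, rfl⟩
  have hcount : ∀ n : ℕ, (TS C N ∩ Set.Iic n).ncard ≤ (0 + 13) * Nat.sqrt n := by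
    rw [hTS]
    refine card_le_sqrt' ?_ ?_ ?_ ?_
    · intro m hm
      obtain ⟨r, e, hr, -, he, -, rfl⟩ := hm
      exact hr.isPrimePow.pow (by omega)
    · intro m hm
      obtain ⟨r, e, hr, hrC, he, hNm, rfl⟩ := hm
      exact (bigQ_spec (hN' r e hr (hr2 r hrC) he hNm)).1
    · intro m hm
      obtain ⟨r, e, hr, hrC, he, hNm, rfl⟩ := hm
      obtain ⟨h1, h2, -⟩ := bigQ_spec (hN' r e hr (hr2 r hrC) he hNm)
      exact hT _ _ h1 h2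
    · intro m hm hmp _
      have hmN : N1 < m := by
        obtain ⟨r, e, hr, hrC, he, hNm, rfl⟩ := hm
        exact ((le_max_right B N1).trans hN).trans_lt hNm
      obtain ⟨q, hq, hqm, hle⟩ := hN1 m hmp hmN
      have h3 := (bigQ_spec ⟨q, hq, hqm⟩).2.2 q hq hqm
      omega
  rw [Nat.zero_add] at hcount
  exact ⟨hcount, tendsto_div_primeCounting_of_sqrt hcount⟩

end Vale.Agent.P027.R4.H330
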