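import Vale.Agent.P027.R4.H330.Thin
import Vale.Agent.P027.R4.H330.CntL

set_option linter.all false

/-! The sparse set `TS C N` of helper788 has at most `c sqrt n / log n` elements up to `n`, with
an absolute constant `c`. -/

namespace Vale.Agent.P027.R4.H330

open Filter Topology
open Vale.Agent.P345 Vale.Agent.P027 Vale.Agent.P027.HT Vale.Agent.P027.D1

theorem thin_TS_log (hH : RowH)
    (hSP : ∃ N0 : ℕ, ∀ r : ℕ, r.Prime → N0 < r → ∃ q : ℕ, q.Prime ∧ Ord q r ∧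
      r ^ 2 ≤ 2 * (q + 1))
    (hT : ∀ q m : ℕ, q.Prime → Ord q m → m ≤ 2 * (q + 1)) :
    ∃ (N0 : ℕ) (c : ℝ), 0 < c ∧
      ∀ N : ℕ, N0 ≤ N → ∀ C n : ℕ, 2 ≤ n →
        ((TS C N ∩ Set.Iic n).ncard : ℝ) ≤ c * (√n / Real.log n) := by
  obtain ⟨B, hB⟩ := hH
  obtain ⟨N1, hN1⟩ := hSP
  obtain ⟨c, hc, hcard⟩ := card_le_log
  refine ⟨max B N1, c, hc, fun N hN C => ?_⟩
  have hN' : ∀ r e : ℕ, r.Prime → r ≠ 2 → 1 ≤ e → N < r ^ e →
      ∃ q : ℕ, q.Prime ∧ Ord q (r ^ e) := fun r e hr hr2 he h =>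
    hB r e hr hr2 he (((le_max_left _ _).trans hN).trans_lt h)
  have hr2 : ∀ r : ℕ, ¬ r ∣ 2 * C → r ≠ 2 := by
    rintro r h rfl
    exact h (Dvd.intro C rfl)
  set S : Set ℕ := {m | ∃ r e : ℕ, r.Prime ∧ ¬ r ∣ 2 * C ∧ 1 ≤ e ∧ N < r ^ e ∧ r ^ e = m}
    with hSdef
  have hTS : TS C N = bigQ '' S := by
    ext q
    constructor
    · rintro ⟨r, e, hr, hrC, he, hN, rfl⟩
      exact ⟨r ^ e, ⟨r, e, hr, hrC, he, hN, rfl⟩, rfl⟩
    · rintro ⟨m, ⟨r, e, hr, hrC, he, hN, rfl⟩, rfl⟩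
      exact ⟨r, e, hr, hrC, he, hN, rfl⟩
  rw [hTS]
  refine hcard bigQ S ?_ ?_ ?_
  · intro m hm
    obtain ⟨r, e, hr, -, he, -, rfl⟩ := hm
    exact hr.isPrimePow.pow (by omega)
  · intro m hm
    obtain ⟨r, e, hr, hrC, he, hNm, rfl⟩ := hm
    obtain ⟨h1, h2, -⟩ := bigQ_spec (hN' r e hr (hr2 r hrC) he hNm)
    exact hT _ _ h1 h2
  · intro m hm hmp
    have hmN : N1 < m := by
      obtain ⟨r, e, hr, hrC, he, hNm, rfl⟩ := hm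
      exact ((le_max_right B N1).trans hN).trans_lt hNm
    obtain ⟨q, hq, hqm, hle⟩ := hN1 m hmp hmN
    have h3 := (bigQ_spec ⟨q, hq, hqm⟩).2.2 q hq hqm
    omega

end Vale.Agent.P027.R4.H330
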